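import Vale.Agent.P057GA.Brg
import Vale.Agent.P057QP.Shear
import Vale.Agent.P057T1.Dv1

/-!
Two witnesses: near on the joint system implies near at the designated point.
-/

set_option linter.all false

open Matrix Finset
open scoped Real
open Vale.Agent.P267.H775 Vale.Agent.P057G Vale.Agent.P057MA Vale.Agent.P057HU
open Vale.Agent.P057T1 Vale.Agent.P057IV Vale.Agent.P057QP
open Vale.Agent.P057PI (dup sg sc_sg Sc qC aC asmC cqC tup4 cop_sum cop_split cop_bad mass_qC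
  asmC_cq mem_qC qC_sdiff)
open Vale.Agent.P057GA (JF Emb Bd pt sub sub_sub' sub_pt sub_sub_eq sub_one exists_wh pt_of_nf
  rig_of_uf nf_of_bd mix_xr card_slt e1)

namespace Vale.Agent.P057TW

noncomputable section

section alg

variable {Mon : Type} {Sl : Mon → Type} [∀ μ, Fintype (Sl μ)] [∀ μ, DecidableEq (Sl μ)]
  {Λ : Type} [AddCommGroup Λ]

def mA : Fin 4 → Fin 7 → ℤ :=
  ![![1, 0, -1, 0, 0, 0, 0], ![0, 1, 0, 0, 0, 0, 0], ![0, 0, 1, 0, 0, 0, 0], ![0, 0, 0, 1, 0, 0, 0]]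
def mB : Fin 4 → Fin 7 → ℤ :=
  ![![1, 0, 0, 0, 0, -1, 0], ![0, 0, 0, 0, 1, 0, 0], ![0, 0, 0, 0, 0, 1, 0], ![0, 0, 0, 0, 0, 0, 1]]
def kA : Fin 7 → Fin 7 → ℤ := fun a b => if a = b ∧ a.1 < 4 then 1 else 0
def e0 : Fin 7 → ℤ := ![1, 0, 0, 0, 0, 0, 0]

/-- two witnesses in coefficients -/
theorem wit7 (e : Emb Sl Λ) {K M : ℝ} {d : ℕ} {G : Fin 7 → Λ} (hR : e.Rig K G) {F : Mon → ℝ}
    {I I' : JF Sl (Fin 4) ℤ}
    (h1 : Bd M (pt ![1, 0, 1, 0] F - e.io 4 ![G 0 - G 2, G 1, G 2, G 3] I))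
    (h2 : Bd M (pt ![1, 0, 1, 0] F - e.io 4 ![G 0 - G 5, G 4, G 5, G 6] I'))
    (hd : ∀ μ, Fintype.card (Sl μ) ≤ d) (hM : 0 ≤ M) (hK : 2 * (2 ^ d * M) ≤ K) :
    ∃ k : Mon → ℤ, ∀ μ, |F μ - e.io1 (G 0) k μ| ≤ 2 ^ d * M := by
  have a1 : ![G 0 - G 2, G 1, G 2, G 3] = fun j' => ∑ j, mA j' j • G j := by
    apply tup4 <;> simp [mA, Fin.sum_univ_seven, sub_eq_add_neg]
  have a2 : ![G 0 - G 5, G 4, G 5, G 6] = fun j' => ∑ j, mB j' j • G j := by
    apply tup4 <;> simp [mB, Fin.sum_univ_seven, sub_eq_add_neg]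
  have a3 : ∑ j, e0 j • G j = G 0 := by simp [e0, Fin.sum_univ_seven]
  have b1 : ∀ j, ∑ j', |mA j' j| ≤ 2 := by decide
  have b2 : ∀ j, ∑ j', |mB j' j| ≤ 2 := by decide
  have c1 := h1.sub_le (B := 2) mA (by norm_num) (fun j => by exact_mod_cast b1 j) hd hM
  have c2 := h2.sub_le (B := 2) mB (by norm_num) (fun j => by exact_mod_cast b2 j) hd hM
  rw [sub_sub', a1, ← e.nat, sub_pt,
    (by decide : (fun j => ∑ j', ![1, 0, 1, 0] j' * mA j' j) = e0)] at c1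
  rw [sub_sub', a2, ← e.nat, sub_pt,
    (by decide : (fun j => ∑ j', ![1, 0, 1, 0] j' * mB j' j) = e0)] at c2
  have hz : sub mA I - sub mB I' = 0 := by
    refine hR _ (Bd.mono (M := 2 ^ d * M + 2 ^ d * M) ?_ (by linarith))
    rw [map_sub]
    convert c2.sub c1 using 1
    abel
  have q1 : sub kA (sub mA I) = sub mA I := by
    rw [sub_sub_eq, (by decide : (fun a j => ∑ j', mA a j' * kA j' j) = mA)]
  rw [← q1, sub_eq_zero.1 hz, sub_sub_eq, (by decide : (fun a j => ∑ j', mB a j' * kA j' j) =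
    fun a j => ∑ j' : Fin 1, (fun a (_ : Fin 1) => (![1, 0, 0, 0] : Fin 4 → ℤ) a) a j' *
      (fun (_ : Fin 1) => e0) j' j), ← sub_sub_eq, sub_one, e.io_pt, a3] at c1
  exact ⟨_, fun μ => by simpa [pt, e0] using c1 μ fun _ => 0⟩

end alg

/-- a dense relation has two witnesses -/
theorem two_sum {A U : Type*} {a : A → ℝ} {m : U → ℝ} (ha : Wt a) (hm : Wt m) {f : A × U → ℝ}
    {n : A × U × U → ℝ} {e : ℝ} (f1 : ∀ p, |f p| ≤ 1) (n1 : ∀ p, |n p| ≤ 1) (he : 0 < e)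
    (h : ∀ t u u', f (t, u) * f (t, u') ≤ n (t, u, u')) :
    ∑' p : A × U, a p.1 * m p.2 * f p ≤
      e * ∑' t, a t + (∑' p : A × U × U, a p.1 * (m p.2.1 * m p.2.2) * n p) / e := by
  rw [ha.fub hm f1, ha.fub (hm.prod hm) n1]
  refine hasSum_le (fun t => ?_) (ha.summ fun t => hm.abs_le fun u => f1 (t, u)).hasSum
    ((ha.2.hasSum.mul_left e).add
      ((ha.summ fun t => (hm.prod hm).abs_le fun u => n1 (t, u)).hasSum.div_const e))
  have h1 : (∑' u, m u * f (t, u)) ^ 2 ≤ ∑' p : U × U, m p.1 * m p.2 * n (t, p) := by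
    rw [hm.sq fun u => f1 (t, u)]
    exact Summable.tsum_le_tsum
      (fun p => mul_le_mul_of_nonneg_left (h t p.1 p.2) ((hm.prod hm).1 p))
      ((hm.prod hm).summ (C := 1) fun p => by
        rw [abs_mul]; exact mul_le_one₀ (f1 _) (abs_nonneg _) (f1 _))
      ((hm.prod hm).summ fun p => n1 (t, p))
  rw [mul_comm e, mul_div_assoc, ← mul_add]
  refine mul_le_mul_of_nonneg_left ?_ (ha.1 t)
  rw [← sub_le_iff_le_add', le_div_iff₀ he]
  nlinarith [sq_nonneg (∑' u, m u * f (t, u) - e), sq_nonneg (∑' u, m u * f (t, u))]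

/-- four points as a centre and a witness -/
def E4 (Λ : Type*) : Λ × Λ × Λ × Λ ≃ (Fin 4 → Λ) :=
  ⟨fun p => ![p.1, p.2.1, p.2.2.1, p.2.2.2], fun x => (x 0, x 1, x 2, x 3), fun _ => rfl,
    fun x => by funext c; fin_cases c <;> rfl⟩

/-- seven points as a centre and two witnesses -/
def E7 (Λ : Type*) : Λ × (Λ × Λ × Λ) × Λ × Λ × Λ ≃ (Fin 7 → Λ) :=
  ⟨fun p => ![p.1, p.2.1.1, p.2.1.2.1, p.2.1.2.2, p.2.2.1, p.2.2.2.1, p.2.2.2.2],
    fun x => (x 0, (x 1, x 2, x 3), x 4, x 5, x 6), fun _ => rfl,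
    fun x => by funext c; fin_cases c <;> rfl⟩

theorem fib_two {Λ : Type*} {w : ℝ → Λ → ℝ} {s : ℝ} (ha : Wt (w 1)) (hl : Wt (w s))
    {f : (Fin 4 → Λ) → ℝ} {n : (Fin 7 → Λ) → ℝ} {e : ℝ} (f1 : ∀ p, |f p| ≤ 1)
    (n1 : ∀ p, |n p| ≤ 1) (he : 0 < e)
    (h : ∀ G : Fin 7 → Λ, f ![G 0, G 1, G 2, G 3] * f ![G 0, G 4, G 5, G 6] ≤ n G) :
    ∑' x : Fin 4 → Λ, (∏ c, w (![1, 1, s, s] c) (x c)) * f x ≤ e * ∑' t, w 1 t +
      (∑' x : Fin 7 → Λ, (∏ c, w (![1, 1, s, s, 1, s, s] c) (x c)) * n x) / e := by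
  rw [← (E4 Λ).tsum_eq, ← (E7 Λ).tsum_eq]
  refine le_trans (le_of_eq (tsum_congr fun p => ?_)) ((two_sum ha (ha.prod (hl.prod hl))
    (f := fun p => f (E4 Λ p)) (n := fun p => n (E7 Λ p)) (fun _ => f1 _) (fun _ => n1 _) he
    fun t u u' => h (E7 Λ (t, u, u'))).trans (le_of_eq ?_))
  · rw [Fin.prod_univ_four]
    change w 1 p.1 * w 1 p.2.1 * w s p.2.2.1 * w s p.2.2.2 * _ = _
    ring
  · congr 2
    refine tsum_congr fun p => ?_
    rw [Fin.prod_univ_seven]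
    change _ = w 1 p.1 * w 1 p.2.1.1 * w s p.2.1.2.1 * w s p.2.1.2.2 * w 1 p.2.2.1 *
      w s p.2.2.2.1 * w s p.2.2.2.2 * _
    ring

variable {V ι : Type} [Fintype V] [DecidableEq V] [Fintype ι] [DecidableEq ι] {S : MS V ι}
  {q : Finset ι} {A : Finset V} {b : V}

/-- two witnesses over one point -/
theorem nf_two (h : S.Ok) (hc : S.Cen) (hq : Cls S q) (hb : b ∉ A) {r : Finset ι}
    (hr : q \ S.sts A = r) (y : ι → ℤ) (G : Fin 7 → ↥(r ∩ S.st b) → ℤ) {lam c : ℝ} (hl : 1 ≤ lam)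
    (h1 : 1 ≤ c) (hA : lam * A.card ≤ c ^ 2) {ψ : (ι → ℝ) → ℝ} (hψ : Fm S q A ψ) {K K' : ℝ}
    (hK : 0 ≤ K) (hK' : (q.card * 7 * c) ^ A.card * (2 * (2 ^ A.card * K)) ≤ K')
    (hU : UF (nar (blow S 0) 1) (qC S 0 q b) (aC 0 A) K' (toR (asmC S 0 r b y G)))
    (n1 : NF (jt S b lam) (qC S 0 q b) (aC 0 A) (fun Z => ψ (pr S b 0 2 Z)) K
      (toR (asmC S 0 r b y ![G 0 - G 2, G 1, G 2, G 3])))
    (n2 : NF (jt S b lam) (qC S 0 q b) (aC 0 A) (fun Z => ψ (pr S b 0 2 Z)) K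
      (toR (asmC S 0 r b y ![G 0 - G 5, G 4, G 5, G 6]))) :
    NF S q A ψ K' (toR (put (r ∩ S.st b) (G 0) y)) := by
  obtain ⟨R, M, w⟩ := exists_wh h (c := c) (by linarith)
  have hσ : ∀ a, (![1, 1, √lam, √lam] : Fin 4 → ℝ) a ^ 2 ≤ lam := fun a => by
    fin_cases a <;> simp [hl, Real.sq_sqrt (show (0 : ℝ) ≤ lam by linarith)]
  obtain ⟨I, hI⟩ := pt_of_nf h hc hq hb w hr y _ (sc_jt _ b hl) hl hσ (by linarith) hA hψ n1
  obtain ⟨I', hI'⟩ := pt_of_nf h hc hq hb w hr y _ (sc_jt _ b hl) hl hσ (by linarith) hA hψ n2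
  rw [show (![G 0 - G 2, G 1, G 2, G 3] 0 + ![G 0 - G 2, G 1, G 2, G 3] 2) = G 0 from
    sub_add_cancel _ _] at hI
  rw [show (![G 0 - G 5, G 4, G 5, G 6] 0 + ![G 0 - G 5, G 4, G 5, G 6] 2) = G 0 from
    sub_add_cancel _ _] at hI'
  have k0 : ((q ∩ S.sts A).card : ℝ) ≤ q.card := by
    exact_mod_cast card_le_card inter_subset_left
  have k1 : 0 ≤ 2 ^ A.card * K := by positivity
  obtain ⟨k, hk⟩ := wit7 _ (rig_of_uf h hc hq hb w hr y (g := 6) G h1 (by positivity)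
    (le_trans (by push_cast; gcongr) hK') hU) hI hI' card_slt hK le_rfl
  refine (nf_of_bd h hc hq w h1 (toR y) (G 0) (fun j hj => mix_xr _ _ (hr ▸ hj)) hψ
    (D := fun _ => 0) (fun z _ => by simp [e1]) (k := k) k1
    fun μ => by rw [sub_zero]; exact hk μ).mono (le_trans ?_ hK')
  have k2 : (0 : ℝ) ≤ q.card := Nat.cast_nonneg _
  exact mul_le_mul (pow_le_pow_left₀ (by positivity)
    (mul_le_mul_of_nonneg_right (by linarith) (by linarith)) _) (by linarith) k1 (by positivity)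

theorem cop_bad' {C : Type} [Fintype C] [DecidableEq C] {c0 : C} {σ : C → ℝ} (h : S.Ok)
    (hc : S.Cen) (hq : Cls S q) (hA : A.Nonempty) (hb : b ∉ A) {r : Finset ι}
    (hr : q \ S.sts A = r) (hσ : ∀ c, 1 ≤ σ c) {a K W η : ℝ} (ha : 1 ≤ a) (hK : 0 ≤ K)
    (hW : a * ((K + 1) * (Fintype.card C * q.card + 2 * A.card + 2)) ≤ W) (hW' : ∀ c, σ c ≤ W)
    (hm : (nar (blow S c0) W).mass (qC S c0 q b) ≤ 1 + η) :
    ∃ t ≤ 500 * 7 ^ A.card * η * vl S.G (r \ S.st b),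
      HasSum (fun y => S.wt (r \ S.st b) y * ((∑' x : C → ↥(r ∩ S.st b) → ℤ,
        (∏ c, gs (σ c ^ 2 • S.fg r b (toR y)) (toR (x c))) *
          ind (¬ UF (nar (blow S c0) a) (qC S c0 q b) (aC c0 A) K (toR (asmC S c0 r b y x)))) /
          ∏ c, vol (σ c ^ 2 • S.fg r b (toR y)))) t := by
  subst hr
  exact cop_bad h hc hq hA hb hσ ha hK hW hW' hm

theorem sh_asm {r : Finset ι} (y : ι → ℤ) (x0 x1 x2 x3 : ↥(r ∩ S.st b) → ℤ)
    {i : BI S.fc (0 : Fin 4)} (hi : i ∈ qC S 0 r b) :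
    sh S b (-1) (asmC S 0 r b y ![x0, x1, x2, x3]) i = asmC S 0 r b y ![x0 - x2, x1, x2, x3] i := by
  obtain ⟨c, j, hj, rfl⟩ := mem_qC.1 hi
  rw [asmC_cq b y _ c hj]
  by_cases h1 : j ∈ S.st b
  · have h2 := mem_inter.2 ⟨hj, h1⟩
    by_cases h3 : c = 0
    · subst h3
      refine (sh_cq _ _ h1).trans ?_
      erw [asmC_cq b y _ 0 hj, asmC_cq b y _ 2 hj]
      rw [put_pos _ _ h2, put_pos _ _ h2, put_pos _ _ h2, neg_one_smul, ← sub_eq_add_neg]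
      rfl
    · refine (sh_ne _ _ (Or.inl h3)).trans ((asmC_cq b y _ c hj).trans ?_)
      fin_cases c
      exacts [absurd rfl h3, rfl, rfl, rfl]
  · have h2 : j ∉ r ∩ S.st b := fun a => h1 (mem_inter.1 a).2
    refine (sh_ne _ _ (Or.inr h1)).trans ((asmC_cq b y _ c hj).trans ?_)
    rw [put_neg _ _ h2, put_neg _ _ h2]

/-- near on the joint system but far at the designated point -/
def Far (S : MS V ι) (b : V) (lam : ℝ) (q : Finset ι) (A : Finset V) (ψ : (ι → ℝ) → ℝ)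
    (K K' : ℝ) (Z : BI S.fc (0 : Fin 4) → ℤ) : Prop :=
  NF (jt S b lam) (qC S 0 q b) (aC 0 A) (fun Z => ψ (pr S b 0 2 Z)) K (toR Z) ∧
    ¬ NF S q A ψ K' (pr S b 0 2 (toR Z))

theorem far_two (h : S.Ok) (hc : S.Cen) (hq : Cls S q) (hb : b ∉ A) {r : Finset ι}
    (hr : q \ S.sts A = r) (y : ι → ℤ) (G : Fin 7 → ↥(r ∩ S.st b) → ℤ) {lam c : ℝ} (hl : 1 ≤ lam)
    (h1 : 1 ≤ c) (hA : lam * A.card ≤ c ^ 2) {ψ : (ι → ℝ) → ℝ} (hψ : Fm S q A ψ) {K K' : ℝ}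
    (hK : 0 ≤ K) (hK' : (q.card * 7 * c) ^ A.card * (2 * (2 ^ A.card * K)) ≤ K')
    (n1 : Far S b lam q A ψ K K' (sh S b (-1) (asmC S 0 r b y ![G 0, G 1, G 2, G 3])))
    (n2 : Far S b lam q A ψ K K' (sh S b (-1) (asmC S 0 r b y ![G 0, G 4, G 5, G 6]))) :
    ¬ UF (nar (blow S 0) 1) (qC S 0 q b) (aC 0 A) K' (toR (asmC S 0 r b y G)) := by
  have g0 : qC S 0 q b \ (jt S b lam).sts (aC 0 A) = qC S 0 r b := hr ▸ qC_sdiff q hb
  refine fun hU => n1.2 ?_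
  rw [toR_sh, pr_sh]
  refine (nf_two h hc hq hb hr y G hl h1 hA hψ hK hK' hU
    (n1.1.congr fun i hi => congrArg Int.cast (sh_asm y _ _ _ _ (g0 ▸ hi)))
    (n2.1.congr fun i hi => congrArg Int.cast (sh_asm y _ _ _ _ (g0 ▸ hi)))).congr fun j hj => ?_
  exact congrArg Int.cast
    (asmC_cq (c0 := (0 : Fin 4)) b y ![G 0, G 1, G 2, G 3] 0 (hr ▸ hj)).symm

theorem fib_gs {P : Type} [Fintype P] [DecidableEq P] {H : Matrix P P ℝ} (hH : H.PosDef)
    {s ε : ℝ} (hs : 0 < s) (hε : 0 < ε) {f : (Fin 4 → P → ℤ) → Prop}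
    {n : (Fin 7 → P → ℤ) → Prop}
    (h : ∀ G : Fin 7 → P → ℤ, f ![G 0, G 1, G 2, G 3] → f ![G 0, G 4, G 5, G 6] → n G) :
    ∑' x : Fin 4 → P → ℤ, (∏ c, gs ((![1, 1, s, s] : Fin 4 → ℝ) c ^ 2 • H) (toR (x c))) *
      ind (f x) ≤ (∏ c, vol ((![1, 1, s, s] : Fin 4 → ℝ) c ^ 2 • H)) *
      (ε * th (((1 : ℝ) ^ 2 • H))⁻¹ 0 + (∑' x : Fin 7 → P → ℤ,
        (∏ c, gs ((![1, 1, s, s, 1, s, s] : Fin 7 → ℝ) c ^ 2 • H) (toR (x c))) * ind (n x)) /
          (∏ c, vol ((![1, 1, s, s, 1, s, s] : Fin 7 → ℝ) c ^ 2 • H)) / ε) := by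
  have H1 : ((1 : ℝ) ^ 2 • H).PosDef := hH.smul (pow_pos one_pos 2)
  have H2 : (s ^ 2 • H).PosDef := hH.smul (pow_pos hs 2)
  have p1 := vol_pos H1
  have p2 := vol_pos H2
  have k0 : ∀ G : Fin 7 → P → ℤ,
      ind (f ![G 0, G 1, G 2, G 3]) * ind (f ![G 0, G 4, G 5, G 6]) ≤ ind (n G) :=
    fun G => (ind_mul_le id id).trans (ind_mono fun a => h G a.1 a.2)
  have key := fib_two (w := fun s x => gs (s ^ 2 • H) (toR x)) (s := s) (by exact wt_gs0 H1)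
    (by exact wt_gs0 H2) (f := fun x => ind (f x)) (n := fun x => ind (n x)) (fun _ => abs_ind _)
    (fun _ => abs_ind _) (mul_pos hε (mul_pos p1 (mul_pos p2 p2))) k0
  rw [tsum_gs0, th_zero_eq H1] at key
  refine key.trans (le_of_eq ?_)
  rw [Fin.prod_univ_four, Fin.prod_univ_seven]
  simp only [cons_val_zero, cons_val_one, Matrix.cons_val]
  generalize (1 : ℝ) ^ 2 • H = H' at p1 ⊢
  field_simp

/-- points near on the joint system but far at the designated point are rare -/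
theorem one_sum (h : S.Ok) (hc : S.Cen) (hq : Cls S q) (hA : A.Nonempty) (hb : b ∉ A)
    {r : Finset ι} (hr : q \ S.sts A = r) {lam c δ ε η K K' W : ℝ} (hl : 1 ≤ lam) (h1 : 1 ≤ c)
    (hc2 : lam * A.card ≤ c ^ 2) (hδ : 0 < δ) (hd : 1 + 1 / δ ≤ δ * lam) (hε : 0 < ε)
    {ψ : (ι → ℝ) → ℝ} (hψ : Fm S q A ψ) (hK : 0 ≤ K)
    (hK' : (q.card * 7 * c) ^ A.card * (2 * (2 ^ A.card * K)) ≤ K')
    (hW : (K' + 1) * (7 * q.card + 2 * A.card + 2) ≤ W) (hW' : √lam ≤ W) {N : ℕ} (hN : 7 ≤ N)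
    (hs : Smo S univ N W η) :
    ∑' Z, (jt S b lam).wt (qC S 0 r b) Z * ind (Far S b lam q A ψ K K' Z) ≤
      (η + 4 * Fintype.card ι * δ + (ε * (1 + 2 * η) + 500 * 7 ^ A.card * η / ε)) *
        vl (jt S b lam).G (qC S 0 r b) := by
  have hr' : Cls S r := hr ▸ cls_sdiff_sts hq A
  have hs1 := Real.one_le_sqrt.2 hl
  have hW1 : 1 ≤ W := hs1.trans hW'
  have m0 : ∀ M, Cls S M → (nar S 1).mass M ≤ 1 + η := fun M hM =>
    (Smo.mono h hc (cls_univ S) hM hs (subset_univ _) le_rfl one_pos hW1 le_rfl).mass h hc hM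
      (by omega) one_ne_zero
  have s0 := shear h hc b hl hδ hd (ρ := fun _ => r) (fun _ => hr') rfl
    (mass_jt h hc b hl hW' (by omega) hs (cls_cps b lam fun _ => hr')) (n := 1) (by norm_num)
    (F := fun Z => ind (Far S b lam q A ψ K K' (sh S b (-1) Z))) (fun _ => ind_nonneg _)
    fun _ => ind_le _
  simp only [sh_sh, add_neg_cancel, sh_zero] at s0
  refine le_trans s0 ?_
  rw [add_mul _ (_ + _), add_comm]
  refine add_le_add le_rfl ?_
  have s4 := cop_sum h hc hr' (sc_jt r b hl)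
    (g := fun Z => ind (Far S b lam q A ψ K K' (sh S b (-1) Z))) fun _ => abs_ind _
  have v4 := (cop_split h (sc_jt r b hl)).2
  obtain ⟨t1, b1, s1⟩ := fine_sum h hc (hr'.sat h) b le_rfl (m0 r hr')
  have k0 : 0 ≤ K' := le_trans (by positivity) hK'
  obtain ⟨t7, b7, s7⟩ := cop_bad' (c0 := (0 : Fin 7)) (σ := ![1, 1, √lam, √lam, 1, √lam, √lam])
    h hc hq hA hb hr (fun c => by fin_cases c <;> simp [hs1]) le_rfl k0
    (by simpa using hW) (fun c => by fin_cases c <;> simp [hW1, hW'])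
    (mass_qC h hc hq b (by linarith)
      (Smo.mono h hc (cls_univ S) hq hs (subset_univ _) le_rfl (by linarith) le_rfl le_rfl)
      (by simpa using hN))
  have s2 := h.hasSum_wt (r \ S.st b)
  have b2 := m0 _ (hr'.sdiff_st b)
  rw [nar_one] at b2
  have p0 := vl_pos h.pd (r \ S.st b)
  have pJ := vl_pos (ok_jt h b hl).pd (qC S 0 r b)
  set X := vl (jt S b lam).G (qC S 0 r b) with hX
  refine (hasSum_le (fun y => ?_) s4 ((((s1.add s2).mul_left ε).add (s7.div_const ε)).mul_left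
    (X / vl S.G (r \ S.st b)))).trans ?_
  · refine (mul_le_mul_of_nonneg_left (fib_gs (h.fg_pos r b (toR y)) (by linarith) hε
      (f := fun x => Far S b lam q A ψ K K' (sh S b (-1) (asmC S 0 r b y x)))
      fun G => far_two h hc hq hb hr y G hl h1 hc2 hψ hK hK') (MS.wt_nonneg _ _)).trans
      (le_of_eq ?_)
    rw [show X = _ from v4 (toR y), mul_div_cancel_left₀ _ p0.ne']
    ring
  · rw [div_mul_eq_mul_div, div_le_iff₀ p0, mul_comm _ X, mul_assoc]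
    refine mul_le_mul_of_nonneg_left ?_ pJ.le
    rw [add_mul, div_mul_eq_mul_div]
    refine add_le_add ?_ (div_le_div_of_nonneg_right b7 hε.le)
    rw [mul_assoc]
    refine mul_le_mul_of_nonneg_left ?_ hε.le
    nlinarith [mul_le_mul_of_nonneg_right b2 p0.le]

theorem fce_jt {B : Finset V} (hA : b ∉ A) (hb : b ∈ B) (lam : ℝ) :
    fce (jt S b lam) (a4 A ∪ b4 B b) = qC S 0 (fce S (A ∪ B)) b := by
  have e : a4 A ∪ b4 B b = b4 (A ∪ B) b := by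
    rw [b4, b4, erase_union_distrib, erase_eq_of_notMem hA, ← union_assoc]
    exact congrArg (· ∪ _) (image_union _ _).symm
  rw [e, fce_b4 (mem_union_right _ hb)]
  rfl

theorem num_pow {Y X : ℝ} {n : ℕ} (hY : 2 ≤ Y) (hX : Y ^ (n + 5) ≤ X) :
    16 * Y ≤ X ∧ 32 * 2 ^ n ≤ X ∧ 32 * ((n : ℝ) + 1) ≤ X ∧ X * X ≤ X ^ (n + 5) := by
  have h1 : (2 : ℝ) ^ n ≤ Y ^ n := pow_le_pow_left₀ (by norm_num) hY n
  have h2 : (16 : ℝ) ≤ Y ^ 4 := le_trans (by norm_num) (pow_le_pow_left₀ (by norm_num) hY 4)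
  have h3 : (n : ℝ) + 1 ≤ 2 ^ n := by exact_mod_cast Nat.lt_two_pow_self
  have h4 : (0 : ℝ) ≤ n := Nat.cast_nonneg n
  have h5 : 16 * Y ≤ Y ^ 4 * Y := by nlinarith
  rw [pow_add, pow_succ Y 4] at hX
  have h6 : 2 ^ n * (16 * Y) ≤ X := le_trans (by gcongr) hX
  have h7 : 32 * 2 ^ n ≤ X := by nlinarith
  exact ⟨by nlinarith, h7, by linarith,
    (sq X).symm.trans_le (pow_le_pow_right₀ (by linarith) (by omega))⟩

theorem num_a {P D y : ℝ} {n a : ℕ} (ha : a ≤ n) (h1 : 32 * 2 ^ n ≤ P)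
    (h2 : 32 * ((n : ℝ) + 1) ≤ P) (h0 : 0 ≤ D) (hD : D ≤ P) (y0 : 0 ≤ y) (hy : y ≤ P) :
    P * a ≤ (P * P) ^ 2 ∧ (D * 7 * (P * P)) ^ a * (2 * (2 ^ a * y)) ≤ P ^ (4 * n + 2) ∧
      (P ^ (4 * n + 2) + 1) * (7 * D + 2 * a + 2) ≤ P ^ (4 * n + 4) ∧ (7 : ℝ) ^ a ≤ P ^ 3 := by
  have a1 : (a : ℝ) ≤ n := by exact_mod_cast ha
  have a0 : (0 : ℝ) ≤ a := Nat.cast_nonneg a
  have hl : 1 ≤ P := by linarith
  have e2 : (2 : ℝ) ^ a ≤ 2 ^ n := pow_le_pow_right₀ (by norm_num) ha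
  have e3 : (0 : ℝ) < 2 ^ a := by positivity
  refine ⟨le_trans (mul_le_mul_of_nonneg_left (by linarith) (by linarith))
    (le_self_pow₀ (one_le_mul_of_one_le_of_one_le hl hl) two_ne_zero), ?_, ?_, ?_⟩
  · have e1 : (D * 7 * (P * P)) ^ a ≤ (P ^ 4) ^ n :=
      (pow_le_pow_left₀ (by positivity) (le_trans (by gcongr; linarith)
        (by ring_nf; rfl : P * P * (P * P) ≤ P ^ 4)) _).trans
        (pow_le_pow_right₀ (one_le_pow₀ hl) ha)
    rw [pow_add, pow_mul]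
    refine mul_le_mul e1 ?_ (by positivity) (by positivity)
    rw [← mul_assoc, sq]
    exact mul_le_mul (by linarith) hy y0 (by linarith)
  · have e1 := one_le_pow₀ (n := 4 * n + 2) hl
    rw [show P ^ (4 * n + 4) = P ^ (4 * n + 2) * (P * P) by ring]
    generalize P ^ (4 * n + 2) = T at e1
    refine le_trans (b := 2 * T * (8 * P))
      (mul_le_mul (by linarith) (by linarith) (by positivity) (by positivity)) ?_
    nlinarith [mul_le_mul_of_nonneg_left (show 16 ≤ P by linarith)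
      (show 0 ≤ T * P by positivity)]
  · refine (pow_le_pow_left₀ (by norm_num) (by norm_num : (7 : ℝ) ≤ 2 ^ 3) a).trans ?_
    rw [← pow_mul, mul_comm, pow_mul]
    exact pow_le_pow_left₀ e3.le (by linarith) 3

theorem num_b {P D t β η : ℝ} (β0 : 0 < β) (f5 : β ≤ 1) (f3 : 1 ≤ P * β) (hD : D * β ≤ 1)
    (f2 : 2 ^ 17 ≤ P) (η0 : 0 < η) (η1 : η * P ^ 8 ≤ 1) (f1 : t ≤ P ^ 3) :
    η + 4 * D * (β ^ 3 / 32) + (β ^ 2 / 32 * (1 + 2 * η) + 500 * t * η / (β ^ 2 / 32)) ≤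
      β ^ 2 / 2 := by
  have hl : 1 ≤ P := by linarith
  have f4 : η * P ^ 4 ≤ β ^ 4 := by
    refine le_of_mul_le_mul_right (a := P ^ 4) ?_ (by positivity)
    rw [mul_assoc, ← pow_add, ← mul_pow, mul_comm β]
    exact η1.trans (one_le_pow₀ f3)
  have f6 : 500 * t * η / (β ^ 2 / 32) ≤ β ^ 2 / 8 := by
    rw [div_le_iff₀ (by positivity)]
    nlinarith [mul_le_mul_of_nonneg_right f1 η0.le,
      mul_le_mul_of_nonneg_left f2 (show 0 ≤ η * P ^ 3 by positivity)]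
  have f7 : β ^ 4 ≤ β ^ 2 := pow_le_pow_of_le_one β0.le f5 (by norm_num)
  have f8 : η * 8 ≤ η * P ^ 4 := mul_le_mul_of_nonneg_left
    (le_trans (by linarith) (le_self_pow₀ hl (by norm_num))) η0.le
  have f9 : D * β ^ 3 ≤ β ^ 2 := by nlinarith [mul_le_mul_of_nonneg_right hD (pow_pos β0 2).le]
  have f10 : β ^ 2 ≤ 1 := pow_le_one₀ β0.le f5
  nlinarith

theorem num_c {Y X : ℝ} (hY : 2 ≤ Y) (hX : 16 * Y ≤ X) :
    1 + 1 / (Real.exp (-Y) ^ 3 / 32) ≤ Real.exp (-Y) ^ 3 / 32 * Real.exp X := by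
  have e1 : 2 ^ 11 ≤ Real.exp (X - 6 * Y) := exp_num (n := 11) (by push_cast; linarith) le_rfl
  have e2 : Real.exp X = Real.exp (X - 6 * Y) * Real.exp Y ^ 6 := by
    rw [← Real.exp_nat_mul, ← Real.exp_add]; congr 1; push_cast; ring
  have e4 : 1 ≤ Real.exp Y ^ 3 := one_le_pow₀ (Real.one_le_exp (by linarith))
  have e5 := Real.exp_pos Y
  rw [e2, Real.exp_neg]
  field_simp
  nlinarith

theorem tw (V : Type) [Fintype V] [DecidableEq V] : TW V := by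
  refine ⟨Fintype.card V + 5, fun ι _ _ S B b κ _ ty ψ Ω Y X h hc hY hX hb hty hψ _ hD hκ hs hΩ
    hE => ?_⟩
  obtain ⟨a1, a2, a3, a5⟩ := num_pow hY hX
  have cA : ∀ k, (ty k).card ≤ Fintype.card V := fun k => card_le_univ _
  generalize Fintype.card V = n at *
  have n0 : (0 : ℝ) ≤ n := Nat.cast_nonneg n
  have pX : X ≤ Real.exp X := by linarith [Real.add_one_le_exp X]
  have hl : 1 ≤ Real.exp X := by linarith
  have hy : Real.exp Y ≤ Real.exp X := Real.exp_le_exp.2 (by linarith)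
  have hPk : ∀ k : ℕ, (k : ℝ) ≤ X → Real.exp X ^ k ≤ Real.exp (X ^ (n + 5)) := fun k hk => by
    rw [← Real.exp_nat_mul]
    exact Real.exp_le_exp.2 (le_trans (mul_le_mul_of_nonneg_right hk (by linarith)) a5)
  have β0 := Real.exp_pos (-Y)
  have β1 : Real.exp Y * Real.exp (-Y) = 1 := by
    rw [← Real.exp_add, add_neg_cancel, Real.exp_zero]
  have y0 := Real.exp_pos Y
  have η0 := Real.exp_pos (-X ^ (n + 5))
  have η1 : Real.exp (-X ^ (n + 5)) * Real.exp X ^ 8 ≤ 1 := by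
    refine (mul_le_mul_of_nonneg_left (hPk 8 (by push_cast; linarith)) η0.le).trans_eq ?_
    rw [← Real.exp_add, neg_add_cancel, Real.exp_zero]
  have hJ := ok_jt h b hl
  have pJ := vl_pos hJ.pd (qC S 0 (fce S B) b)
  have hbA : ∀ k, b ∉ ty k := fun k a => disjoint_left.1 (hty k).2 a hb
  have key : ∀ k, ∑' Z, (jt S b (Real.exp X)).wt (qC S 0 (fce S B) b) Z *
      ind (Far S b (Real.exp X) (fce S (ty k ∪ B)) (ty k) (ψ k) (Real.exp Y)
        (Real.exp X ^ (4 * n + 2)) Z) ≤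
      Real.exp (-Y) ^ 2 / 2 * vl (jt S b (Real.exp X)).G (qC S 0 (fce S B) b) := fun k => by
    obtain ⟨c1, c2, c3, c4⟩ := num_a (D := (fce S (ty k ∪ B)).card) (cA k) (a2.trans pX)
      (a3.trans pX) (Nat.cast_nonneg _)
      (le_trans (by exact_mod_cast card_le_univ _) (hD.trans hy)) y0.le hy
    exact (one_sum h hc (cls_fce S _) (hty k).1 (hbA k) (fce_sdiff_sts (hty k).2) hl
      (one_le_mul_of_one_le_of_one_le hl hl) c1 (by positivity) (num_c hY a1) (by positivity)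
      (hψ k) y0.le c2 (c3.trans (hPk _ (by push_cast; linarith)))
      ((Real.sqrt_le_iff.2 ⟨by linarith, le_self_pow₀ hl two_ne_zero⟩).trans
        (by simpa using hPk 1 (by push_cast; linarith)))
      (Nat.cast_le (α := ℝ).1 (le_trans (by push_cast; nlinarith) (Nat.le_ceil _))) hs).trans
      (mul_le_mul_of_nonneg_right (num_b β0 (Real.exp_le_one_iff.2 (by linarith))
        (β1 ▸ mul_le_mul_of_nonneg_right hy β0.le) (β1 ▸ mul_le_mul_of_nonneg_right hD β0.le)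
        (exp_num (n := 17) (by push_cast; linarith) le_rfl) η0 η1 c4) pJ.le)
  have e4 : fce (jt S b (Real.exp X)) (b4 B b) = qC S 0 (fce S B) b := fce_b4 hb _
  rw [den, e4, le_div_iff₀ pJ] at hE ⊢
  have s1 := hasSum_le (fun Z => ?_)
    (hJ.summable_re (qC S 0 (fce S B) b) (f := fun Z => ind (Ω (toR Z))) fun _ => abs_ind _).hasSum
    ((hJ.summable_re (qC S 0 (fce S B) b) (f := fun Z => ind (Ω (toR Z) ∧ ∀ r, Nr S (ty r) B (ψ r)
      (Real.exp (X ^ (n + 5))) (pr S b 0 2 (toR Z)))) fun _ => abs_ind _).hasSum.add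
      (hasSum_sum (s := univ) fun k _ => (hJ.summable_re (qC S 0 (fce S B) b) (f := fun Z =>
        ind (Far S b (Real.exp X) (fce S (ty k ∪ B)) (ty k) (ψ k) (Real.exp Y)
          (Real.exp X ^ (4 * n + 2)) Z)) fun _ => abs_ind _).hasSum))
  · have e2 := sum_le_card_nsmul univ _ _ fun k _ => key k
    rw [card_univ, nsmul_eq_mul, ← mul_assoc] at e2
    have e3 : Fintype.card κ * (Real.exp (-Y) ^ 2 / 2) ≤ Real.exp (-Y) / 2 := by
      nlinarith [mul_le_mul_of_nonneg_right (hκ.trans (by linarith [Real.add_one_le_exp Y] :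
        Y ≤ Real.exp Y)) (pow_pos β0 2).le]
    have e5 : Real.exp (-(Y + 1)) ≤ Real.exp (-Y) / 2 := by
      rw [neg_add, Real.exp_add, Real.exp_neg 1, ← div_eq_mul_inv]
      exact div_le_div_of_nonneg_left β0.le two_pos (by linarith [Real.add_one_le_exp 1])
    linarith [mul_le_mul_of_nonneg_right e3 pJ.le, mul_le_mul_of_nonneg_right e5 pJ.le]
  · rw [← mul_sum, ← mul_add]
    refine mul_le_mul_of_nonneg_left ?_ (MS.wt_nonneg _ _)
    by_cases g : ∀ r, Nr S (ty r) B (ψ r) (Real.exp (X ^ (n + 5))) (pr S b 0 2 (toR Z))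
    · exact (ind_mono fun a => ⟨a, g⟩).trans
        (le_add_of_nonneg_right (sum_nonneg fun k _ => ind_nonneg _))
    · obtain ⟨k, hk⟩ := not_forall.1 g
      refine le_trans (ind_mono fun a => ?_) ((single_le_sum (fun k _ => ind_nonneg _)
        (mem_univ k)).trans (le_add_of_nonneg_left (ind_nonneg _)))
      exact ⟨fce_jt (S := S) (hbA k) hb _ ▸ hΩ Z a k,
        fun a2 => hk (a2.mono (hPk _ (by push_cast; linarith)))⟩

end

end Vale.Agent.P057TW
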